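import Vale.Agent.P155Z.Final

/-!
# P155: the double-dimer CLE₄ conjecture, CLE₄ defined by the branching SLE₄(-2) exploration

The symmetric SLE₄(-2) process exists; exactly one family of laws of loop collections is made of
the loops traced by this process together with independent copies in all the components it cuts
out (nested CLE₄, as constructed by Sheffield); it is the limit in law of the double-dimer loops.
-/

namespace Vale.Agent.Results.P155.BranchingSLE

open MeasureTheory Filter Topology Vale.Agent.P155 Vale.Agent.P155.Q1 Vale.Agent.P155.Tree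

/-- **The double-dimer CLE₄ conjecture.** -/
theorem result :
    (∃ (Θ : Type) (_ : MeasurableSpace Θ) (P : Measure Θ) (X O : Θ → ℝ → ℝ), IsDriver P X O) ∧
    ∃ μ : Set ℂ → Measure LoopColl, IsTree μ ∧ (∀ ν, IsTree ν → ∀ Ω, Dom Ω → ν Ω = μ Ω) ∧
      ∀ Ω, Dom Ω → (∃ S : Approx Ω, S.Outer) ∧
        ∀ S : Approx Ω, ((∀ F : LoopColl → ℝ, Continuous F → (∃ C, ∀ Γ, |F Γ| ≤ C) →
          Tendsto (fun n => Ex (S.T n).V (fun ω => F (LL (S.δ n) (S.a n) ω))) atTop
            (𝓝 (∫ Γ, F Γ ∂(μ Ω)))) ↔ S.Outer) ∧ (IsConnected (closure Ω)ᶜ → S.Outer) := by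
  obtain ⟨h1, μ, h2, h3, h4⟩ := final_of setup tree uniq
  exact ⟨h1, μ, h2, h3, fun Ω hΩ => (h4 Ω hΩ).2⟩

end Vale.Agent.Results.P155.BranchingSLE
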